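import Vale.Agent.H64.Edit.Sharp

/-!
# Edit distance on the binary cube: embeddings and XOR-translations

`ED x y` is the edit distance of two binary words (least number of single-symbol insertions,
deletions and substitutions).  Let `n = 2 m ≥ 2`.

1. Let `f` map the binary words of length `n` to a (pseudo-)metric space, for instance to `ℓ_1`,
   with `a · ED(x, y) ≤ d(f x, f y) ≤ b · ED(x, y)` for all words `x, y` of length `n`.  If
   `d(f (x ⊕ z), f (y ⊕ z)) ≤ K · d(f x, f y)` for all words `x, y, z` of length `n` (`⊕` is
   bitwise XOR), then `K · b ≥ (n / 2) · a`.  For `K = 1`: if the induced distance is invariant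
   under the translations `x ↦ x ⊕ z` of the cube, the distortion of `f` is at least `n / 2`.
2. The bound `n / 2` is attained by a map into `ℓ_1^n` whose induced distance is invariant under
   XOR-translations (the coordinate embedding, which induces the Hamming distance).
-/

namespace Vale.Agent.Results.P238.A_XorInvariantEmbeddings

open Vale.Agent.H64.Edit

theorem result : ∀ (m : ℕ), 1 ≤ m →
    (∀ (M : Type) [PseudoMetricSpace M] (f : List Bool → M) (a b K : ℝ), 0 ≤ K →
      (∀ x y : List Bool, x.length = 2 * m → y.length = 2 * m →
        a * (ED x y : ℝ) ≤ dist (f x) (f y) ∧ dist (f x) (f y) ≤ b * (ED x y : ℝ)) →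
      (∀ x y z : List Bool, x.length = 2 * m → y.length = 2 * m → z.length = 2 * m →
        dist (f (List.zipWith xor x z)) (f (List.zipWith xor y z)) ≤ K * dist (f x) (f y)) →
      a * m ≤ K * b) ∧
    ∃ f : List Bool → PiLp 1 (fun _ : Fin (2 * m) => ℝ),
      (∀ x y : List Bool, x.length = 2 * m → y.length = 2 * m →
        (ED x y : ℝ) ≤ dist (f x) (f y) ∧ dist (f x) (f y) ≤ m * (ED x y : ℝ)) ∧
      ∀ x y z : List Bool, x.length = 2 * m → y.length = 2 * m → z.length = 2 * m →
        dist (f (List.zipWith xor x z)) (f (List.zipWith xor y z)) = dist (f x) (f y) :=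
  fun m hm =>
    ⟨fun _ _ f a b K hK hab hinv => xor_quasi_invariant_distortion m hm f a b K hK hab hinv,
      coord (2 * m), coord_sharp m hm⟩

end Vale.Agent.Results.P238.A_XorInvariantEmbeddings
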